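import Vale.Agent.P014T.L2.Gp
import Vale.Agent.P004F.Pr.Cnt

/-! # P014T, block L2: local duality for a plane over the field with two elements (helper34) -/

set_option autoImplicit false
set_option linter.all false

noncomputable section

namespace Vale.Agent.P014T.L2

open NumberField Matrix Module Cardinal
open Vale.Agent.P022 (Qb GQ)
open Vale.Agent.P022D.W (dec)
open Vale.Agent.P022E.GW (Ov)
open Vale.Agent.P022K.G2 Vale.Agent.P022K.G2.Dm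
open Vale.Agent.P004S (W wp wp_smul_right wp_add_left wp_add_right wp_smul_left)
open Vale.Agent.P004F.Pr (prj2 inv_ex ex_fun)

section grp

variable {G : Type} [Group G] [TopologicalSpace G] {A : Subgroup G} {a : G → M2}

theorem rh_inj {M N : M2} (h : M.mulVecLin = N.mulVecLin) : M = N :=
  Matrix.toLin'.injective h

/-- the kernel -/
def kr (r : Rp ∅ A (rh a)) : Subgroup G where
  carrier := {g | g ∈ A ∧ rh a g = 1}
  mul_mem' m n := ⟨mul_mem m.1 n.1, by rw [r.mul _ m.1 _ n.1, m.2, n.2, mul_one]⟩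
  one_mem' := ⟨one_mem _, r.one⟩
  inv_mem' {g} m := ⟨inv_mem m.1, by
    rw [← mul_one (rh a g⁻¹), ← m.2, ← r.mul _ (inv_mem m.1) _ m.1, inv_mul_cancel, m.2, r.one]⟩

/-- **the plane is projective** -/
theorem pd (r : Rp ∅ A (rh a)) : Pd ∅ A (kr r) (rh a) fun _ => 1 :=
  ⟨inferInstance, r, prj2 (by simp) (rh_inj (r.one.trans mulVecLin_one.symm))
      (fun g hg h hh => rh_inj ((r.mul g hg h hh).trans (mulVecLin_mul _ _).symm))
      fun g => and_congr_right fun _ => ⟨fun e => rh_inj (e.trans mulVecLin_one.symm),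
        fun e => by rw [rh, e, mulVecLin_one]; rfl⟩,
    fun g hg u hu => ⟨mul_mem (mul_mem hg hu.1) (inv_mem hg), by
      rw [r.mul _ (mul_mem hg hu.1) _ (inv_mem hg), r.mul _ hg _ hu.1, hu.2, mul_one,
        ← r.mul _ hg _ (inv_mem hg), mul_inv_cancel, r.one]⟩,
    r.lv.imp fun _ h => ⟨h.1, fun w hw m => ⟨hw, h.2 w hw m⟩⟩, fun _ _ m => m.2,
    ⟨rfl, fun _ _ _ _ => (mul_one _).symm⟩, fun _ _ _ => rfl⟩

end grp

variable {l : ℕ} {P : Ideal (𝓞 Qb)} {A : Subgroup GQ} {a : GQ → M2}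

theorem h2_le (h : Lo P A) (o : Ov l P) : h2 ∅ A (tr GQ (ZMod 2)) ≤ 1 := by
  obtain ⟨H, hH, rfl⟩ := h
  rw [← ch_om_two]
  exact (dimt2 (ZMod 2) H l P _ hH o (rp_om _ H)).1

/-- **the Hilbert symbol is not degenerate** -/
theorem nd (h : Lo P A) (o : Ov l P) {η : GQ → ZMod 2} (hη : Ch A η)
    (e : ∀ β, Ch A β → cup η β ∈ B A) {σ : GQ} (hσ : σ ∈ A) : η σ = 0 := by
  obtain ⟨H, hH, rfl⟩ := h
  obtain ⟨Γ, ψ, oΓ, l1, l2, c, k⟩ := hη.ext_open hH inf_le_left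
  have eA : Γ ⊓ dec P = H ⊓ dec P :=
    le_antisymm (inf_le_inf_right _ l2) (le_inf l1 inf_le_right)
  rw [← eA] at e hσ k
  rw [← k σ hσ]
  by_contra n
  let a : GQ → M2 := fun g => !![1, ψ g; 0, 1]
  have a1 : ∀ g, ψ g = 0 → rh a g = 1 := fun g m => by
    rw [rh, show a g = 1 by simp only [a, m, one_fin_two], mulVecLin_one]; rfl
  have r : Rp ∅ Γ (rh a) := ⟨a1 1 c.one, fun g hg h hh => by
      rw [rh, show a (g * h) = a g * a h by simp [a, c.1 g hg h hh, add_comm], mulVecLin_mul]; rfl,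
    c.2.imp fun W hW => ⟨hW.1, fun w hw m => a1 w (hW.2 w hw m)⟩⟩
  have d := pd r
  have u : Un (Γ ⊓ dec P) a ![1, 0] ![0, 1] :=
    ⟨r.mono subset_rfl inf_le_left, fun g _ => funext fun i => by
      fin_cases i <;> simp [a, mulVec, dotProduct], by decide⟩
  have et1 : ∀ g, et a ![0, 1] g = ψ g := fun g => by simp [et, a, wp, mulVec, dotProduct]
  have e1 := lpc 2 (ZMod 2) W Γ _ l P _ oΓ (d.le.isOpen oΓ) (le_gz_two _) o
    (om_two' (ZMod 2) ▸ Cx.pd_res d inf_le_left)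
  have rt := rp_tr (k := ZMod 2) (∅ : Set GQ) (Γ ⊓ dec P)
  have e2 := lpc 2 (ZMod 2) (ZMod 2) Γ Γ l P _ oΓ oΓ (le_gz_two _) o ⟨inferInstance, rt,
    pr0 GQ _ _ ∅ _ _ _ rt (by rw [Subgroup.relIndex_eq_one.2 inf_le_left]; simp),
    fun g hg u hu => Γ.mul_mem (Γ.mul_mem hg.1 hu) (Γ.inv_mem hg.1), le_of_open oΓ _,
    fun _ _ _ => rfl, mu_om _ _, fun _ _ _ => om_two _ _⟩
  have e3 := Cn.rk_map ((wl ![1, 0]).compLeft GQ) (Z1 ∅ (Γ ⊓ dec P) (rh a))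
  have i1 : rk (Z1 ∅ (Γ ⊓ dec P) (tr GQ (ZMod 2))) ≤
      rk ((Z1 ∅ (Γ ⊓ dec P) (rh a)).map ((wl ![1, 0]).compLeft GQ)) :=
    Submodule.rank_mono fun β hβ => by
      obtain ⟨b, hb, q⟩ := u.lift (Z1.ch hβ) (bc (e β (Z1.ch hβ)) fun g hg h _ => by
        rw [cup, et1, k g hg]; rfl)
      refine ⟨b, hb, funext fun g => ?_⟩
      by_cases m : g ∈ Γ ⊓ dec P
      · exact q g m
      · show wl _ (b g) = _
        rw [hb.2.1 g m, hβ.2.1 g m, map_zero]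
  have i2 : rk (Z1 ∅ (Γ ⊓ dec P) (tr GQ (ZMod 2))) ≤
      rk (Z1 ∅ (Γ ⊓ dec P) (rh a) ⊓ LinearMap.ker ((wl ![1, 0]).compLeft GQ)) := by
    let i := (LinearMap.toSpanSingleton (ZMod 2) W ![1, 0]).compLeft GQ
    rw [rk, (Submodule.equivMapOfInjective i (fun x y q => funext fun g => by
      simpa [i] using congrFun (congrFun q g) 0) _).rank_eq]
    refine Submodule.rank_mono ?_
    rintro _ ⟨β, hβ, rfl⟩
    exact ⟨Z1.amap hβ (LinearMap.toSpanSingleton (ZMod 2) W ![1, 0]).toAddMonoidHom fun g hg n => by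
      show n • _ = a g *ᵥ (n • _)
      rw [mulVec_smul, u.fx g hg], funext fun g => by
      show wp (![1, 0] : W) (β g • ![1, 0]) = 0
      rw [wp_smul_right, wp_self, mul_zero]⟩
  have i3 : rk (Hm (Γ ⊓ dec P) (rh a) (om 2 (ZMod 2))) ≤ 1 := by
    have w0 : wl ![1, 0] ∈ Hm (Γ ⊓ dec P) (rh a) (om 2 (ZMod 2)) := fun g hg v => by
      rw [om_two, one_mul]; exact u.wx hg v
    refine rank_le_one_iff.2 ⟨⟨_, w0⟩,
      fun f => ⟨f.1 ![0, 1], Subtype.ext (LinearMap.ext fun v => ?_)⟩⟩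
    have := f.2 σ hσ ![0, 1]
    rw [om_two, one_mul, mulVecLin_apply, u.ay hσ, et1, z01 _ n, one_smul, map_add] at this
    replace this := add_eq_right.1 this
    conv_rhs => rw [bas _ _ u.xy v, map_add, map_smul, map_smul, this, smul_zero, zero_add]
    exact mul_comm _ _
  have i4 : 1 ≤ rk (Hm (Γ ⊓ dec P) (tr GQ (ZMod 2)) (om 2 (ZMod 2))) :=
    ch_om_two (ZMod 2) ▸ Cx.one_hm fun _ _ => rfl
  rw [rank_fun', Fintype.card_fin] at e1
  rw [rank_self, mul_one] at e2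
  generalize (if l = 2 then Γ.relIndex (dec P) else 0 : ℕ) = m at e1 e2
  have := ((add_le_add ((add_le_add_left i4 (1 + m)).trans (e2.ge.trans i1))
    ((add_le_add_left i4 (1 + m)).trans (e2.ge.trans i2))).trans (e3.trans e1).le).trans
      (add_le_add_left i3 _)
  norm_cast at this
  omega

theorem lc (h : Lo P A) (o : Ov l P) : Lc A := ⟨fun z hz z' hz' n n' => by
    obtain ⟨f, f1, f2⟩ := ex_fun (h2_le h o)
    exact f2 _ (sub_mem hz hz') (by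
      rw [map_sub, z01 _ (mt (f2 z hz) n), z01 _ (mt (f2 z' hz') n'), sub_self]),
  fun _ hη e _ hg => nd h o hη e hg⟩

/-- **local duality in degree one** -/
theorem ld1 (h : Lo P A) (o : Ov l P) (r : Rp ∅ A (rh a)) {c : GQ → W} (hc : c ∈ Z1 ∅ A (rh a))
    (e : ∀ b ∈ Z1 ∅ A (rh a), cu a c b ∈ B A) : c ∈ B1 A (rh a) := by
  by_cases n : ∀ x, (∀ g ∈ A, a g *ᵥ x = x) → x = 0
  swap
  · push Not at n
    obtain ⟨x, fx, hx⟩ := n
    obtain ⟨y, xy⟩ := ex_y x hx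
    exact Un.ld1 ⟨r, fx, xy⟩ (lc h o) hc e
  have d := pd r
  refine tr1 GQ _ W ∅ A _ _ c r d.prj hc ⟨0, fun u hu => ?_⟩
  rw [map_zero]
  refine wp_nd _ fun x hx => ?_
  obtain ⟨y, xy⟩ := ex_y x hx
  obtain ⟨R, t, hR⟩ := tv3 r n hx
  have le : A ⊓ sb r x ≤ A := inf_le_left
  have lv : Le ∅ A (A ⊓ sb r x) := (Le.self _ _).inf (sb_le r x)
  have L := lc (h.sub le lv) o
  have u' : Un (A ⊓ sb r x) a x y := ⟨r.mono subset_rfl le, fun g m => m.2.2, xy⟩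
  have ch := (Z1.ch (u'.quo (Z1.res hc subset_rfl le))).congr (b := fun g => wp x (c g))
    fun g m => by simp only [Set.indicator_of_mem m]
  rw [wp_comm]
  refine L.nd _ ch (fun β hβ => by_contra fun k => ?_) u ⟨hu.1, hu.1, LinearMap.congr_fun hu.2.2 x⟩
  obtain ⟨ν, hν⟩ := h.un o
  obtain ⟨γ, hγ, z0⟩ := h.nz o hν
  have hz := cup_z2 hν.1 hγ
  have rt := rp_tr (k := ZMod 2) (∅ : Set GQ) A
  obtain ⟨v, hv, m⟩ := trv t (sb_le r x) r hz hc (u'.sub hβ) (bc (L.line _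
    (Z2.mono hz subset_rfl le) _ (cup_z2 ch hβ) (fun q => z0 (tr2 GQ _ _ ∅ A _ _ _ rt
      (pr0 GQ _ _ ∅ A _ _ rt (by rw [← t.card, hR]; exact one_ne_zero)) (sb_le r x) hz q)) k)
    fun g hg j hj => by
      simp only [Pi.sub_apply, cu, cup, Set.indicator_of_mem hj, mulVec_smul, u'.fx g hg,
        wp_smul_right, wp_comm x, mul_comm])
  rw [hR, one_smul] at m
  exact z0 (bof m (e v hv))

theorem ld1' (h : Lo P A) (o : Ov l P) (r : Rp ∅ A (rh a)) {c : GQ → W} (hc : c ∈ Z1 ∅ A (rh a))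
    (e : ∀ b ∈ Z1 ∅ A (rh a), cu a b c ∈ B A) : c ∈ B1 A (rh a) :=
  ld1 h o r hc fun b hb => cu_skew r hb hc (e b hb)

/-- **local duality in degree two** -/
theorem ld2 (h : Lo P A) (o : Ov l P) (r : Rp ∅ A (rh a)) {z : GQ → GQ → W}
    (hz : z ∈ Z2 ∅ A (rh a))
    (e : ∀ x, (∀ g ∈ A, a g *ᵥ x = x) → (fun g h => wp x (z g h)) ∈ B A) :
    z ∈ B2 ∅ A (rh a) := by
  by_cases n : ∀ x, (∀ g ∈ A, a g *ᵥ x = x) → x = 0
  swap
  · push Not at n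
    obtain ⟨x, fx, hx⟩ := n
    obtain ⟨y, xy⟩ := ex_y x hx
    exact Un.ld2 ⟨r, fx, xy⟩ (lc h o) hz e
  have d := pd r
  obtain ⟨f, f1, f2, -⟩ := inv_ex d (h2_le (h.sub inf_le_left ((Le.self _ _).inf d.le)) o)
  exact f2 z hz (n _ fun g hg => (f1 z hz g hg).trans (one_smul _ _))

theorem mx {k X : Type} [Field k] [AddCommGroup X] [Module k X] (φ : X →ₗ[k] X →ₗ[k] k)
    {Z R L : Submodule k X} [Module.Finite k Z] (rf : ∀ b ∈ Z, ∀ c ∈ Z, φ b c = 0 → φ c b = 0)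
    (rad : ∀ c ∈ Z, (∀ b ∈ Z, φ b c = 0) → c ∈ R) (le : L ≤ Z) (iso : ∀ b ∈ L, ∀ c ∈ L, φ b c = 0)
    (dim : finrank k Z + finrank k ↥(Z ⊓ R) ≤ 2 * finrank k L) {c : X} (hc : c ∈ Z)
    (e : ∀ b ∈ L, φ b c = 0) : c ∈ L := by
  let Φ : LinearMap.BilinForm k Z := φ.domRestrict₁₂ Z Z
  let L' := L.comap Z.subtype
  have e1 := LinearMap.BilinForm.finrank_add_finrank_orthogonal (B := Φ)
    (fun b c m => rf _ b.2 _ c.2 m) L'
  have e2 : finrank k L' = finrank k L := (Submodule.comapSubtypeEquivOfLe le).finrank_eq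
  have e3 : finrank k ↥(L' ⊓ Φ.orthogonal ⊤) ≤ finrank k ↥(Z ⊓ R) := by
    rw [← (Submodule.comapSubtypeEquivOfLe (inf_le_left (b := R))).finrank_eq]
    exact Submodule.finrank_mono fun b m => ⟨b.2, rad _ b.2 fun x hx => m.2 ⟨x, hx⟩ trivial⟩
  have e4 : L' = Φ.orthogonal L' := Submodule.eq_of_le_of_finrank_le
    (fun c m b n => iso _ n _ m) (by omega)
  exact (e4.ge (fun b n => e _ n) : (⟨c, hc⟩ : Z) ∈ L')

/-- the cup product as a bilinear map -/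
def cl (a : GQ → M2) : (GQ → W) →ₗ[ZMod 2] (GQ → W) →ₗ[ZMod 2] GQ → GQ → ZMod 2 :=
  LinearMap.mk₂ (ZMod 2) (cu a)
    (fun _ _ _ => funext fun _ => funext fun _ => wp_add_left _ _ _)
    (fun _ _ _ => funext fun _ => funext fun _ => wp_smul_left _ _ _)
    (fun _ _ _ => funext fun _ => funext fun _ => by
      simp only [cu, Pi.add_apply, mulVec_add, wp_add_right])
    fun _ _ _ => funext fun _ => funext fun _ => by
      simp only [cu, Pi.smul_apply, mulVec_smul, wp_smul_right, smul_eq_mul]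

/-- **an isotropic subspace of half the dimension is its own orthogonal** -/
theorem maxi (h : Lo P A) (o : Ov l P) (r : Rp ∅ A (rh a)) [Module.Finite (ZMod 2) (Z1 ∅ A (rh a))]
    {L : Submodule (ZMod 2) (GQ → W)} (le : L ≤ Z1 ∅ A (rh a))
    (iso : ∀ b ∈ L, ∀ c ∈ L, cu a b c ∈ B A)
    (dim : finrank (ZMod 2) (Z1 ∅ A (rh a)) + finrank (ZMod 2) ↥(Z1 ∅ A (rh a) ⊓ B1 A (rh a)) ≤
      2 * finrank (ZMod 2) L) {c : GQ → W} (hc : c ∈ Z1 ∅ A (rh a))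
    (e : ∀ b ∈ L, cu a b c ∈ B A) : c ∈ L := by
  obtain ⟨f, f1, f2⟩ := ex_fun (h2_le h o)
  exact mx ((cl a).compr₂ f) (fun b hb c hc m => f1 _ (cu_skew r hb hc (f2 _ (cu_z2 r hb hc) m)))
    (fun c hc m => ld1' h o r hc fun b hb => f2 _ (cu_z2 r hb hc) (m b hb)) le
    (fun b hb c hc => f1 _ (iso b hb c hc)) dim hc fun b hb => f1 _ (e b hb)

/-- the number of local cocycles -/
theorem cnt {Γ : Subgroup GQ} (oΓ : IsOpen (Γ : Set GQ)) (o : Ov l P) (r : Rp ∅ Γ (rh a)) :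
    Module.Finite (ZMod 2) (Z1 ∅ (Γ ⊓ dec P) (rh a)) ∧
    finrank (ZMod 2) (Z1 ∅ (Γ ⊓ dec P) (rh a)) =
      finrank (ZMod 2) (H0 (Γ ⊓ dec P) (rh a) fun _ => 1) +
        (1 + if l = 2 then Γ.relIndex (dec P) else 0) * 2 ∧
    finrank (ZMod 2) ↥(Z1 ∅ (Γ ⊓ dec P) (rh a) ⊓ B1 (Γ ⊓ dec P) (rh a)) +
      finrank (ZMod 2) (H0 (Γ ⊓ dec P) (rh a) fun _ => 1) = 2 := by
  have d := Cx.pd_res (pd r) (inf_le_left (b := dec P))
  have e := lpc 2 (ZMod 2) W Γ _ l P _ oΓ ((pd r).le.isOpen oΓ) (le_gz_two _) o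
    (om_two' (ZMod 2) ▸ d)
  rw [om_two', ← prd GQ _ W ∅ _ _ _ _ d.fin d.rp d.prj d.nz d.tri d.mu d.om, rk, rk,
    ← finrank_eq_rank _ (H0 _ _ _), rank_fun', Fintype.card_fin,
    ← Nat.cast_one (R := Cardinal), ← Nat.cast_add, ← Nat.cast_mul, ← Nat.cast_add] at e
  have f := Module.finite_of_rank_eq_nat e
  have e' := rk_b1 d.rp
  haveI := Submodule.finiteDimensional_inf_left (Z1 ∅ (Γ ⊓ dec P) (rh a)) (B1 (Γ ⊓ dec P) (rh a))
  rw [rk, rk, ← finrank_eq_rank, ← finrank_eq_rank, rank_fun', Fintype.card_fin] at e'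
  exact ⟨f, finrank_eq_of_rank_eq e, by exact_mod_cast e'⟩

theorem maxi' {Γ : Subgroup GQ} (oΓ : IsOpen (Γ : Set GQ)) (o : Ov l P) (r : Rp ∅ Γ (rh a))
    {L : Submodule (ZMod 2) (GQ → W)} (le : L ≤ Z1 ∅ (Γ ⊓ dec P) (rh a))
    (iso : ∀ b ∈ L, ∀ c ∈ L, cu a b c ∈ B (Γ ⊓ dec P))
    (dim : (2 + if l = 2 then Γ.relIndex (dec P) else 0) ≤ finrank (ZMod 2) L) {c : GQ → W}
    (hc : c ∈ Z1 ∅ (Γ ⊓ dec P) (rh a)) (e : ∀ b ∈ L, cu a b c ∈ B (Γ ⊓ dec P)) : c ∈ L := by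
  obtain ⟨f, e1, e2⟩ := cnt oΓ o r
  exact maxi ⟨Γ, oΓ, rfl⟩ o (r.mono subset_rfl inf_le_left) le iso (by omega) hc e

end Vale.Agent.P014T.L2
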