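import Vale.Agent.P022K.G2.Dim
import Vale.Agent.P004S.Bas

/-! # P014T, block L2: duality for a plane over the field with two elements, group theory
(helper34) -/

set_option autoImplicit false
set_option linter.all false

noncomputable section

namespace Vale.Agent.P014T.L2

open Matrix Module
open Vale.Agent.P022K.G2 Vale.Agent.P022K.G2.Dm
open Vale.Agent.P004S (W wp wp_add_left wp_add_right wp_sub_left wp_sub_right wp_smul_left
  wp_smul_right wp_zero_left wp_zero_right)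

abbrev M2 : Type := Matrix (Fin 2) (Fin 2) (ZMod 2)

theorem ex_y : ∀ x : W, x ≠ 0 → ∃ y, wp x y = 1 := by decide +kernel

theorem bas : ∀ x y : W, wp x y = 1 → ∀ v, v = wp v y • x + wp x v • y := by decide +kernel

theorem wp_inj : ∀ M : M2, (∀ v, M *ᵥ v = 0 → v = 0) → ∀ u v, wp (M *ᵥ u) (M *ᵥ v) = wp u v := by
  decide +kernel

theorem four : ∀ x x' : W, [0, x, x'].Nodup → ∀ v, v ∈ [0, x, x', x + x'] := by
  decide +kernel

theorem three (x x' y v : W) (h : (x ≠ 0 ∧ x' ≠ 0 ∧ y ≠ 0 ∧ v ≠ 0) ∧ x' ≠ x ∧ x ≠ y ∧ x' ≠ y) :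
    v = x ∨ v = x' ∨ v = y := by
  obtain ⟨⟨h1, h2, h3, h4⟩, h5, h6, h7⟩ := h
  have n : [0, x, x'].Nodup := by simp [h1.symm, h2.symm, h5.symm]
  have a := four x x' n y
  have b := four x x' n v
  simp only [List.mem_cons, List.not_mem_nil, or_false, h3, h4, h6.symm, h7.symm, false_or] at a b
  rwa [a]

theorem wp_nd : ∀ v : W, (∀ y, y ≠ 0 → wp v y = 0) → v = 0 := by decide +kernel

theorem wp_comm : ∀ u v : W, wp u v = wp v u := by decide +kernel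

theorem wp_self : ∀ u : W, wp u u = 0 := by decide +kernel

/-- the pairing with `x` -/
def wl (x : W) : W →ₗ[ZMod 2] ZMod 2 where
  toFun := wp x
  map_add' := wp_add_right x
  map_smul' c v := wp_smul_right c x v

variable {G : Type} [Group G] [TopologicalSpace G] {A H : Subgroup G} {a : G → M2}
  {b c : G → W} {x y : W} {η β γ : G → ZMod 2} {g h : G}

/-- the representation -/
abbrev rh (a : G → M2) : G → End (ZMod 2) W := fun g => (a g).mulVecLin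

/-- the cup product -/
def cu (a : G → M2) (b c : G → W) : G → G → ZMod 2 := fun g h => wp (b g) (a g *ᵥ c h)

theorem am (r : Rp ∅ A (rh a)) (hg : g ∈ A) (hh : h ∈ A) (v : W) :
    a (g * h) *ᵥ v = a g *ᵥ (a h *ᵥ v) := r.mul' hg hh v

theorem ai (r : Rp ∅ A (rh a)) (hg : g ∈ A) (v : W) : a g⁻¹ *ᵥ (a g *ᵥ v) = v := r.inv' hg v

theorem a0 (r : Rp ∅ A (rh a)) (hg : g ∈ A) {v : W} (e : a g *ᵥ v = 0) : v = 0 := by
  rw [← ai r hg v, e, mulVec_zero]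

theorem aw (r : Rp ∅ A (rh a)) (hg : g ∈ A) (u v : W) : wp (a g *ᵥ u) (a g *ᵥ v) = wp u v :=
  wp_inj _ (fun _ => a0 r hg) u v

theorem zc (hc : c ∈ Z1 ∅ A (rh a)) (hg : g ∈ A) (hh : h ∈ A) : c (g * h) = c g + a g *ᵥ c h :=
  hc.1 g hg h hh

theorem cu_z2 (r : Rp ∅ A (rh a)) (hb : b ∈ Z1 ∅ A (rh a)) (hc : c ∈ Z1 ∅ A (rh a)) :
    cu a b c ∈ Z2 ∅ A (tr G (ZMod 2)) := by
  obtain ⟨W₁, l1, w1⟩ := Z1.c1 hb
  obtain ⟨W₂, l2, w2⟩ := Z1.c1 hc
  obtain ⟨W₃, l3, w3⟩ := r.lv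
  refine ⟨fun g hg h hh j hj => ?_, W₁ ⊓ W₂ ⊓ W₃, (l1.inf l2).inf l3, fun g hg h hh w hw m => ?_⟩
  · simp only [cu, tr_apply, zc hb hg hh, zc hc hh hj, am r hg hh, mulVec_add, wp_add_left,
      wp_add_right, aw r hg]
    ring
  · simp only [cu, w1 g hg w hw m.1.1, w2 h hh w hw m.1.2, am r hg hw, and_true]
    rw [show a w *ᵥ c h = c h from LinearMap.congr_fun (w3 w hw m.2) _]

theorem cu_skew (r : Rp ∅ A (rh a)) (hb : b ∈ Z1 ∅ A (rh a)) (hc : c ∈ Z1 ∅ A (rh a))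
    (e : cu a b c ∈ B A) : cu a c b ∈ B A := by
  obtain ⟨W₁, l1, w1⟩ := Z1.c1 hb
  obtain ⟨W₂, l2, w2⟩ := Z1.c1 hc
  have : cu a c b + cu a b c ∈ B A := ⟨fun g => -wp (b g) (c g), ⟨W₁ ⊓ W₂, l1.inf l2,
    fun g hg w hw m => by simp only [w1 g hg w hw m.1, w2 g hg w hw m.2]⟩, fun g hg h hh => by
      simp only [cu, d1_apply, tr_apply, Pi.add_apply, zc hb hg hh, zc hc hg hh, wp_add_left,
        wp_add_right, aw r hg, wp_comm (c g)]
      ring⟩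
  exact ((B A).add_mem_iff_left e).1 this

/-- coboundaries are orthogonal to everything -/
theorem cu_b1 (r : Rp ∅ A (rh a)) (hb : b ∈ B1 A (rh a)) (hc : c ∈ Z1 ∅ A (rh a)) :
    cu a b c ∈ B A := by
  obtain ⟨n, e⟩ := hb
  refine ⟨fun g => wp n (c g), C1.amap (Z1.c1 hc) (wp n), fun g hg h hh => ?_⟩
  simp only [cu, d1_apply, tr_apply, e g hg, d0_apply, mulVecLin_apply, zc hc hg hh, wp_sub_left,
    wp_add_right, aw r hg]
  ring

/-- **the projection formula** -/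
theorem trv {R : Finset G} (t : Tv A H R) (le : Le ∅ A H) (r : Rp ∅ A (rh a))
    {z : G → G → ZMod 2} (hz : z ∈ Z2 ∅ A (tr G (ZMod 2))) (hc : c ∈ Z1 ∅ A (rh a))
    (hb : b ∈ Z1 ∅ (A ⊓ H) (rh a)) (e : z - cu a c b ∈ B (A ⊓ H)) :
    ∃ v ∈ Z1 ∅ A (rh a), (R.card : ZMod 2) • z - cu a c v ∈ B A := by
  obtain ⟨W₁, l1, w1⟩ := le
  obtain ⟨u₀, ⟨W₂, l2, w2⟩, hu⟩ := e
  obtain ⟨τ, t1, t2, -⟩ := t.rep
  obtain ⟨W₃, l3, w3⟩ := hz.2
  obtain ⟨W₄, l4, w4⟩ := hb.2.2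
  obtain ⟨W₅, l5, w5⟩ := Z1.c1 hc
  obtain ⟨W₆, l6, w6⟩ := r.lv
  have b0 := Z1.one hb r.one
  let β : G → W := fun y => a (τ y) *ᵥ b ((τ y)⁻¹ * y)
  have b1 : ∀ y ∈ A, ∀ u ∈ A, u ∈ H → β (y * u) = β y + a y *ᵥ b u := fun y hy u hu m => by
    have m1 := t.mem _ (t1 y hy).1
    have m2 := mul_mem (inv_mem m1) hy
    simp only [β, t2 y hy u hu m, ← mul_assoc]
    rw [zc hb ⟨m2, (t1 y hy).2⟩ ⟨hu, m⟩, mulVec_add, ← am r m1 m2, mul_inv_cancel_left]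
  let α : G → ZMod 2 := fun y => u₀ ((τ y)⁻¹ * y) - z (τ y) ((τ y)⁻¹ * y) + wp (c (τ y)) (β y)
  have a1 : ∀ y ∈ A, ∀ u ∈ A, u ∈ H →
      α (y * u) = α y + u₀ u - z y u + wp (c y) (a y *ᵥ b u) := by
    intro y hy u hu' m
    have m1 := t.mem _ (t1 y hy).1
    have m2 := mul_mem (inv_mem m1) hy
    have k1 := hz.1 _ m1 _ m2 u hu'
    have k2 := hu _ ⟨m2, (t1 y hy).2⟩ u ⟨hu', m⟩
    have k3 := zc hc m1 m2
    have k4 := am r m1 m2 (b u)
    simp only [d1_apply, tr_apply, Pi.sub_apply, cu] at k1 k2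
    rw [mul_inv_cancel_left] at k1 k3 k4
    have k5 := aw r m1 (c ((τ y)⁻¹ * y)) (a ((τ y)⁻¹ * y) *ᵥ b u)
    rw [← k4] at k5
    simp only [α, t2 y hy u hu' m, b1 y hy u hu' m, ← mul_assoc, wp_add_right]
    rw [k3, wp_add_left, k5]
    linear_combination k2 - k1
  let e : G → G → ZMod 2 := fun g x => z g x - wp (c g) (a g *ᵥ β x) - α x + α (g * x)
  have e1 : ∀ g ∈ A, ∀ x ∈ A, ∀ u ∈ A, u ∈ H → e g (x * u) = e g x := by
    intro g hg x hx u hu m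
    have k1 := hz.1 g hg x hx u hu
    simp only [tr_apply] at k1
    simp only [e, ← mul_assoc, a1 x hx u hu m, a1 _ (mul_mem hg hx) u hu m, b1 x hx u hu m,
      zc hc hg hx, am r hg hx, mulVec_add, wp_add_left, wp_add_right, aw r hg]
    linear_combination k1
  let v : G → W := fun g => ∑ s ∈ R, (β (g * s) - a g *ᵥ β s)
  have lv : ∀ g ∈ A, ∀ w ∈ A, w ∈ W₁ → w ∈ W₄ → ∀ s ∈ R, β (g * w * s) = β (g * s) :=
    fun g hg w hw m1 m4 s hs => by
      have ms := t.mem s hs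
      have n1 := cj_mem ms hw
      have n2 := w1 _ n1 (l1.cj m1 s)
      rw [show g * w * s = g * s * (s⁻¹ * w * s) by group, b1 _ (mul_mem hg ms) _ n1 n2,
        w4 _ ⟨n1, n2⟩ (l4.cj m4 s), mulVec_zero, add_zero]
  have aw1 : ∀ w ∈ A, w ∈ W₆ → ∀ n, a w *ᵥ n = n := fun w hw m n =>
    LinearMap.congr_fun (w6 w hw m) n
  refine ⟨_, z1_of (c := v) r.one ⟨W₁ ⊓ W₄ ⊓ W₆, (l1.inf l4).inf l6, fun g hg w hw m =>
    Finset.sum_congr rfl fun s hs => ?_⟩ fun g hg y hy => ?_, fun g => ∑ s ∈ R, e g s,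
      ⟨W₁ ⊓ W₂ ⊓ (W₃ ⊓ W₄) ⊓ (W₅ ⊓ W₆), ((l1.inf l2).inf (l3.inf l4)).inf (l5.inf l6),
        fun g hg w hw m => Finset.sum_congr rfl fun s hs => ?_⟩, fun g hg y hy => ?_⟩
  · rw [lv g hg w hw m.1.1 m.1.2 s hs, am r hg hw, aw1 w hw m.2]
  · rw [d1_apply, map_sum, sub_add_eq_add_sub, sub_eq_zero]
    simp only [v]
    rw [← t.sum_mul hy (fun x => β (g * x) - a g *ᵥ β x) fun x hx u hu m => by
      rw [← mul_assoc, b1 _ (mul_mem hg hx) u hu m, b1 x hx u hu m, mulVec_add, am r hg hx]; abel,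
      ← Finset.sum_add_distrib]
    refine Finset.sum_congr rfl fun s _ => ?_
    rw [mulVecLin_apply, mulVec_sub, am r hg hy, mul_assoc]; abel
  · have ms := t.mem s hs
    have m1 := cj_mem ms hw
    have m2 := w1 _ m1 (l1.cj m.1.1.1 s)
    have q : g * w * s = g * s * (s⁻¹ * w * s) := by group
    have k1 := a1 _ (mul_mem hg ms) 1 (one_mem _) (one_mem _)
    have k2 := w2 1 (one_mem _) _ ⟨m1, m2⟩ (l2.cj m.1.1.2 s)
    have k3 := (w3 _ (mul_mem hg ms) 1 (one_mem _) _ m1 (l3.cj m.1.2.1 s)).2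
    rw [one_mul] at k2 k3
    rw [mul_one, b0] at k1
    simp only [e]
    rw [q, a1 _ (mul_mem hg ms) _ m1 m2, k2, k3, w4 _ ⟨m1, m2⟩ (l4.cj m.1.2.2 s), ← k1,
      (w3 g hg s ms w hw m.1.2.1).1, w5 g hg w hw m.2.1, am r hg hw, aw1 w hw m.2.2]
  · rw [d1_apply, tr_apply, ← t.sum_mul hy (e g) fun x hx u hu m => e1 g hg x hx u hu m,
      ← Finset.sum_sub_distrib, ← Finset.sum_add_distrib]
    simp only [Pi.sub_apply, Pi.smul_apply, cu, smul_eq_mul, Set.indicator_of_mem hy, v]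
    rw [← nsmul_eq_mul, ← Finset.sum_const, ← mulVecLin_apply, map_sum,
      show wp (c g) = wl (c g) from rfl, map_sum, ← Finset.sum_sub_distrib]
    refine Finset.sum_congr rfl fun s hs => ?_
    have k1 := hz.1 g hg y hy s (t.mem s hs)
    simp only [tr_apply] at k1
    simp only [e, zc hc hg hy, mul_assoc, mulVecLin_apply, mulVec_sub, wp_sub_right, wp_add_left,
      am r hg hy, aw r hg, show ∀ u, wl (c g) u = wp (c g) u from fun _ => rfl]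
    linear_combination -k1

/-- the two properties of a local group -/
structure Lc (A : Subgroup G) : Prop where
  line : ∀ z ∈ Z2 ∅ A (tr G (ZMod 2)), ∀ z' ∈ Z2 ∅ A (tr G (ZMod 2)), z ∉ B A → z' ∉ B A →
    z - z' ∈ B A
  nd : ∀ η, Ch A η → (∀ β, Ch A β → cup η β ∈ B A) → ∀ g ∈ A, η g = 0

theorem Lc.perp (L : Lc A) (hη : Ch A η) (hβ : Ch A β)
    (e : ∀ γ, Ch A γ → cup η γ ∈ B A → cup β γ ∈ B A) :
    (∀ g ∈ A, β g = 0) ∨ ∀ g ∈ A, β g = η g := by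
  by_contra c
  rw [not_or] at c
  obtain ⟨γ₁, c1, n1⟩ : ∃ γ, Ch A γ ∧ cup β γ ∉ B A := by
    by_contra! k; exact c.1 (L.nd β hβ k)
  obtain ⟨γ₂, c2, n2⟩ : ∃ γ, Ch A γ ∧ cup β γ - cup η γ ∉ B A := by
    by_contra! k
    exact c.2 fun g hg => sub_eq_zero.1 (L.nd _ (hβ.sub hη)
      (fun γ m => bc (k γ m) fun _ _ _ _ => sub_mul _ _ _) g hg)
  have n3 : cup η γ₂ ∉ B A := fun m => n2 (sub_mem (e _ c2 m) m)
  have k := e _ (c1.sub c2) (bc (L.line _ (cup_z2 hη c1) _ (cup_z2 hη c2) (mt (e _ c1) n1) n3)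
    fun _ _ _ _ => mul_sub _ _ _)
  refine n2 (L.line _ (cup_z2 hβ c2) _ (cup_z2 hη c2) (fun m => n1 (bof ?_ m)) n3)
  exact bc k fun _ _ _ _ => (mul_sub _ _ _).symm

section uni

/-- `x` is a fixed vector, `η` the class of the extension -/
structure Un (A : Subgroup G) (a : G → M2) (x y : W) : Prop where
  rp : Rp ∅ A (rh a)
  fx : ∀ g ∈ A, a g *ᵥ x = x
  xy : wp x y = 1

/-- the class of the extension -/
def et (a : G → M2) (y : W) (g : G) : ZMod 2 := wp (a g *ᵥ y) y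

variable (u : Un A a x y)
include u

theorem Un.wx (hg : g ∈ A) (v : W) : wp x (a g *ᵥ v) = wp x v := by
  rw [← aw u.rp hg x v, u.fx g hg]

theorem Un.ay (hg : g ∈ A) : a g *ᵥ y = et a y g • x + y := by
  rw [bas x y u.xy (a g *ᵥ y), u.wx hg, u.xy, one_smul]; rfl

theorem Un.ch : Ch A (et a y) := ⟨fun g hg h hh => by
    rw [et, am u.rp hg hh, u.ay hh, mulVec_add, mulVec_smul, u.fx g hg, wp_add_left, wp_smul_left,
      u.xy, mul_one, add_comm]; rfl,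
  u.rp.lv.imp fun W hW => ⟨hW.1, fun w hw m => by
    rw [et, show a w *ᵥ y = y from LinearMap.congr_fun (hW.2 w hw m) _, wp_self]⟩⟩

theorem Un.sub (hβ : Ch A β) : (fun g => (A : Set G).indicator β g • x) ∈ Z1 ∅ A (rh a) :=
  Z1.amap hβ.z1 (LinearMap.toSpanSingleton (ZMod 2) W x).toAddMonoidHom fun g hg n => by
    show n • x = a g *ᵥ (n • x)
    rw [mulVec_smul, u.fx g hg]

theorem Un.quo (hc : c ∈ Z1 ∅ A (rh a)) : (fun g => wp x (c g)) ∈ Z1 ∅ A (tr G (ZMod 2)) :=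
  Z1.amap hc (wl x).toAddMonoidHom fun g hg n => u.wx hg n

theorem Un.lift (hγ : Ch A γ) (e : cup (et a y) γ ∈ B A) :
    ∃ b ∈ Z1 ∅ A (rh a), ∀ g ∈ A, wp x (b g) = γ g := by
  obtain ⟨s, ⟨W₁, l1, w1⟩, hs⟩ := e
  obtain ⟨W₂, l2, w2⟩ := hγ.c1
  refine ⟨_, z1_of (c := fun g => -s g • x + γ g • y) u.rp.one ⟨W₁ ⊓ W₂, l1.inf l2,
    fun g hg w hw m => by simp only [w1 g hg w hw m.1, w2 g hg w hw m.2]⟩ fun g hg h hh => ?_,
    fun g hg => ?_⟩
  · have := hs g hg h hh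
    simp only [cup, d1_apply, tr_apply] at this
    simp only [d1_apply, mulVecLin_apply, mulVec_add, mulVec_smul, u.fx g hg, u.ay hg,
      hγ.1 g hg h hh]
    linear_combination (norm := module) this • x
  · rw [Set.indicator_of_mem hg, wp_add_right, wp_smul_right, wp_smul_right, wp_self, u.xy]; ring

theorem Un.ld1 (L : Lc A) (hc : c ∈ Z1 ∅ A (rh a))
    (e : ∀ b ∈ Z1 ∅ A (rh a), cu a c b ∈ B A) : c ∈ B1 A (rh a) := by
  have h2 := L.nd _ (Z1.ch (u.quo hc)) fun β hβ => bc (e _ (u.sub hβ)) fun g hg h hh => by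
    simp only [cu, cup, Set.indicator_of_mem hh, mulVec_smul, u.fx g hg, wp_smul_right,
      wp_comm x, mul_comm]
  have h1 : ∀ g ∈ A, c g = wp (c g) y • x := fun g hg => by
    simpa only [h2 g hg, zero_smul, add_zero] using bas x y u.xy (c g)
  have c1 : Ch A fun g => wp (c g) y := ⟨fun g hg h hh => by
      beta_reduce
      rw [zc hc hg hh, wp_add_left, h1 h hh, mulVec_smul, u.fx g hg],
    hc.2.2.imp fun W hW => ⟨hW.1, fun w hw m => by simp only [hW.2 w hw m, wp_zero_left]⟩⟩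
  rcases L.perp u.ch c1 fun γ hγ m => by
    obtain ⟨b, hb, k⟩ := u.lift hγ m
    refine bc (e b hb) fun g hg h hh => ?_
    rw [cu, h1 g hg, wp_smul_left, u.wx hg, k h hh]; rfl with k | k
  · exact ⟨0, fun g hg => by rw [h1 g hg, k g hg, zero_smul, map_zero]; rfl⟩
  · exact ⟨y, fun g hg => by
      rw [h1 g hg, k g hg, d0_apply, mulVecLin_apply, u.ay hg, add_sub_cancel_right]⟩

theorem Un.b2 {z : G → G → ZMod 2} (e : z ∈ B A) : (fun g h => z g h • x) ∈ B2 ∅ A (rh a) :=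
  B2.amap e (LinearMap.toSpanSingleton (ZMod 2) W x).toAddMonoidHom fun g hg n => by
    show n • x = a g *ᵥ (n • x)
    rw [mulVec_smul, u.fx g hg]

theorem Un.ld2 (L : Lc A) {z : G → G → W} (hz : z ∈ Z2 ∅ A (rh a))
    (e : ∀ x, (∀ g ∈ A, a g *ᵥ x = x) → (fun g h => wp x (z g h)) ∈ B A) :
    z ∈ B2 ∅ A (rh a) := by
  by_cases k : ∀ β, Ch A β → cup (et a y) β ∈ B A
  · have u' : Un A a y x := ⟨u.rp, fun g hg => by
      rw [u.ay hg, L.nd _ u.ch k g hg, zero_smul, zero_add], wp_comm x y ▸ u.xy⟩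
    refine B2.congr (add_mem (u.b2 (e y u'.fx)) (u'.b2 (e x u.fx))) (fun g _ h _ => ?_)
      fun _ _ => rfl
    simpa only [Pi.add_apply, wp_comm y] using bas x y u.xy (z g h)
  push Not at k
  obtain ⟨β, hβ, n⟩ := k
  obtain ⟨s, hs, es⟩ := e x u.fx
  have m : d1 (rh a) (fun g => s g • y) ∈ B2 ∅ A (rh a) :=
    ⟨_, C1.amap hs (· • y), fun _ _ _ _ => rfl⟩
  obtain ⟨z', hz', e'⟩ : ∃ z', z' = z - d1 (rh a) (fun g => s g • y) ∧ z' ∈ Z2 ∅ A (rh a) :=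
    ⟨_, rfl, sub_mem hz (B2.z2 u.rp m)⟩
  have h1 : ∀ g ∈ A, ∀ h ∈ A, z' g h = wp (z' g h) y • x := fun g hg h hh => by
    have h2 : wp x (z' g h) = 0 := by
      have := es g hg h hh
      simp only [d1_apply, tr_apply] at this
      simp only [hz', Pi.sub_apply, d1_apply, mulVecLin_apply, wp_sub_right, wp_add_right,
        u.wx hg, wp_smul_right, u.xy, this]
      ring
    simpa only [h2, zero_smul, add_zero] using bas x y u.xy (z' g h)
  have z1 : (fun g h => wp (z' g h) y) ∈ Z2 ∅ A (tr G (ZMod 2)) :=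
    ⟨fun g hg h hh j hj => by
      have := congrArg (wp · y) (e'.1 g hg h hh j hj)
      simp only [wp_add_left, mulVecLin_apply] at this
      rwa [h1 h hh j hj, mulVec_smul, u.fx g hg, ← h1 h hh j hj] at this,
    C2.amap e'.2 (wp · y)⟩
  have m' : (fun g h => cup (et a y) β g h • x) ∈ B2 ∅ A (rh a) :=
    ⟨fun g => β g • y, C1.amap hβ.c1 (· • y), fun g hg h hh => by
      simp only [cup, d1_apply, mulVecLin_apply, mulVec_smul, u.ay hg, hβ.1 g hg h hh]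
      module⟩
  rw [← sub_add_cancel z (d1 (rh a) fun g => s g • y), ← hz']
  refine add_mem (B2.congr (z := fun g h => wp (z' g h) y • x) ?_ h1 fun _ _ => rfl) m
  by_cases k : (fun g h => wp (z' g h) y) ∈ B A
  · exact u.b2 k
  · exact B2.congr (add_mem (u.b2 (L.line _ z1 _ (cup_z2 u.ch hβ) k n)) m')
      (fun g _ h _ => by simp only [Pi.add_apply, Pi.sub_apply]; module) fun _ _ => rfl

end uni

/-- the stabiliser of a vector -/
def sb (r : Rp ∅ A (rh a)) (x : W) : Subgroup G where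
  carrier := {g | g ∈ A ∧ a g *ᵥ x = x}
  mul_mem' m n := ⟨mul_mem m.1 n.1, by rw [am r m.1 n.1, n.2, m.2]⟩
  one_mem' := ⟨one_mem _, LinearMap.congr_fun r.one x⟩
  inv_mem' m := ⟨inv_mem m.1, by simpa only [m.2] using ai r m.1 x⟩

theorem sb_le (r : Rp ∅ A (rh a)) (x : W) : Le ∅ A (sb r x) :=
  r.lv.imp fun W hW => ⟨hW.1, fun w hw m => ⟨hw, LinearMap.congr_fun (hW.2 w hw m) x⟩⟩

/-- without fixed vector the action is transitive -/
theorem trs (r : Rp ∅ A (rh a)) (n : ∀ x, (∀ g ∈ A, a g *ᵥ x = x) → x = 0) (hx : x ≠ 0)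
    (hy : y ≠ 0) : ∃ g ∈ A, a g *ᵥ x = y := by
  by_contra! k
  obtain ⟨g, hg, e⟩ : ∃ g ∈ A, a g *ᵥ x ≠ x := by
    by_contra! c; exact hx (n x c)
  refine hy (n y fun h hh => ?_)
  rcases three x (a g *ᵥ x) y (a h *ᵥ y) ⟨⟨hx, mt (a0 r hg) hx, hy, mt (a0 r hh) hy⟩, e,
    fun q => k 1 (one_mem _) ((LinearMap.congr_fun r.one x).trans q), k g hg⟩ with c | c | c
  · exact absurd (by rw [← c, ai r hh]) (k _ (inv_mem hh))
  · exact absurd (by rw [am r (inv_mem hh) hg, ← c, ai r hh]) (k _ (mul_mem (inv_mem hh) hg))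
  · exact c

theorem tv3 (r : Rp ∅ A (rh a)) (n : ∀ x, (∀ g ∈ A, a g *ᵥ x = x) → x = 0) (hx : x ≠ 0) :
    ∃ R, Tv A (sb r x) R ∧ (R.card : ZMod 2) = 1 := by
  classical
  choose! f f1 f2 using fun y hy => trs r n hx (y := y) hy
  have k : ∀ y, y ≠ 0 → ∀ g ∈ A, ((f y)⁻¹ * g ∈ sb r x ↔ a g *ᵥ x = y) := fun y hy g hg =>
    ⟨fun m => by
      rw [← mul_inv_cancel_left (f y) g, am r (f1 y hy) m.1, m.2, f2 y hy],
    fun m => ⟨mul_mem (inv_mem (f1 y hy)) hg, by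
      rw [am r (inv_mem (f1 y hy)) hg, m]
      simpa only [f2 y hy] using ai r (f1 y hy) x⟩⟩
  let s : Finset W := {![1, 0], ![0, 1], ![1, 1]}
  have hs : ∀ y, y ∈ s ↔ y ≠ 0 := by decide +kernel
  refine ⟨_, tv_image s f (fun y m => f1 y ((hs y).1 m)) (fun g hg => ⟨_, (hs _).2
    (mt (a0 r hg) hx), (k _ (mt (a0 r hg) hx) g hg).2 rfl⟩) fun y m y' m' e =>
      ((k y ((hs y).1 m) _ (f1 y' ((hs y').1 m'))).1 e).symm.trans (f2 y' ((hs y').1 m')), ?_⟩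
  rw [Finset.card_image_of_injOn fun y m y' m' e => by
    rw [← f2 y ((hs y).1 m), e, f2 y' ((hs y').1 m')]]
  decide +kernel

end Vale.Agent.P014T.L2
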